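import Vale.Agent.Lib.P034.helper3.Regime
import Vale.Agent.KK.LS.Graded

/-!
# P034: fractional versus integral expectation thresholds for graph containment, dense regime

Let `H` be a graph on `n ≥ 2` labelled vertices, `k ≥ 1` and `M ≥ 1` with `log n ≤ M ^ k`.
If the family of the graphs on `[n]` containing a copy of `H` has a fractional cover of cost at
most `1/2` at `p ≤ 1`, and `n * (p / (480 M^2)) ^ k ≥ 3 log n`, then it has a cover of cost at
most `1/2` at `p / (480 M^2)`. With `M = 2`: a constant-factor comparison (constant `1920`) of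
the two expectation thresholds in the dense regime.
-/

namespace Vale.Agent.Lib.P034.H33D

open Finset SimpleGraph
open Vale.Agent.KK Vale.Agent.KK.PP Vale.Agent.Lib.P064 Vale.Agent.Lib.P034.H3C

/-- Rounding in the dense regime: `log n ≤ M ^ k` and `3 log n ≤ n (p / (480 M^2)) ^ k`. -/
theorem dense_small {n : ℕ} (hn : 2 ≤ n) (H : SimpleGraph (Fin n))
    (F : Finset (Finset (Slot n))) (hF : ∀ W, W ∈ F ↔ H ⊑ graphOf W)
    (k : ℕ) (hk1 : 1 ≤ k) (M : ℝ) (hM : 1 ≤ M) (hk : Real.log n ≤ M ^ k)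
    (p : ℝ) (hp : 0 ≤ p) (hp1 : p ≤ 1)
    (hdense : 3 * Real.log n ≤ n * (p / (480 * M ^ 2)) ^ k)
    (hfs : IsFracSmall F p) :
    IsSmall F (p / (480 * M ^ 2)) := by
  classical
  have hM2 : (1 : ℝ) ≤ M ^ 2 := one_le_pow₀ hM
  have hC0 : (0 : ℝ) < 480 * M ^ 2 := by linarith
  have hC1 : (1 : ℝ) ≤ 480 * M ^ 2 := by linarith
  set q : ℝ := p / (480 * M ^ 2) with hq
  have hq0 : 0 ≤ q := by positivity
  have hqp : q ≤ p := by
    rw [hq]
    exact div_le_self hp hC1
  by_cases hyp : ∀ H' : H.Subgraph, (1 : ℝ) / 2 ≤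
      ((⊤ : SimpleGraph (Fin n)).copyCount H'.coe : ℝ) * q ^ H'.edgeSet.ncard
  · exfalso
    have hlab := Vale.Agent.KK.LS.graded_hlab hn H k hk1 M hM hk q hq0 (hqp.trans hp1) hdense hyp
    have e : 240 * M ^ 2 * (2 * q) = p := by
      rw [hq]
      field_simp
      ring
    rw [e] at hlab
    exact Vale.Agent.Lib.P034.H3R.not_fracSmall_of_hlab H F hF p hp hlab hfs
  · push Not at hyp
    obtain ⟨H', hH'⟩ := hyp
    obtain ⟨G, hGcov, hGcost⟩ := sub_cover H H' q hq0
    refine ⟨G, fun W hW => hGcov W ((hF W).1 hW), ?_⟩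
    unfold cost
    linarith

/-- Thresholds in the dense regime: if `log n ≤ M ^ k` and the fractional threshold `q_f`
satisfies `3 log n ≤ n (q_f / (960 M^2)) ^ k`, then `q_f ≤ 480 M^2 q`. -/
theorem dense_thresholds {n : ℕ} (hn : 2 ≤ n) (H : SimpleGraph (Fin n))
    (F : Finset (Finset (Slot n))) (hF : ∀ W, W ∈ F ↔ H ⊑ graphOf W)
    (k : ℕ) (hk1 : 1 ≤ k) (M : ℝ) (hM : 1 ≤ M) (hk : Real.log n ≤ M ^ k)
    (hdense : 3 * Real.log n ≤ n * (fracExpThreshold F / (960 * M ^ 2)) ^ k) :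
    fracExpThreshold F ≤ 480 * M ^ 2 * expThreshold F := by
  classical
  have hl2 : (0.6931471803 : ℝ) < Real.log 2 := Real.log_two_gt_d9
  have hnR : (2 : ℝ) ≤ n := by exact_mod_cast hn
  have hnpos : (0 : ℝ) < n := by linarith
  have hlogn : Real.log 2 ≤ Real.log n := Real.log_le_log (by norm_num) hnR
  have hM2 : (1 : ℝ) ≤ M ^ 2 := one_le_pow₀ hM
  have hC0 : (0 : ℝ) < 480 * M ^ 2 := by linarith
  have hC1 : (1 : ℝ) ≤ 480 * M ^ 2 := by linarith
  have hbdd : BddAbove {p : ℝ | 0 ≤ p ∧ p ≤ 1 ∧ IsSmall F p} := ⟨1, fun p hp => hp.2.1⟩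
  have hbddf : BddAbove {p : ℝ | 0 ≤ p ∧ p ≤ 1 ∧ IsFracSmall F p} := ⟨1, fun p hp => hp.2.1⟩
  have h0 : 0 ≤ expThreshold F := Real.sSup_nonneg (fun p hp => hp.1)
  set qf : ℝ := fracExpThreshold F with hqf
  have hqf0 : 0 ≤ qf := Real.sSup_nonneg (fun p hp => hp.1)
  -- the fractional threshold is positive
  have hqfpos : 0 < qf := by
    rcases hqf0.lt_or_eq with h | h
    · exact h
    · exfalso
      rw [← h, zero_div, zero_pow (by omega : k ≠ 0), mul_zero] at hdense
      linarith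
  -- every fractionally small density above `qf / 2` rounds
  have key : ∀ p ∈ {p : ℝ | 0 ≤ p ∧ p ≤ 1 ∧ IsFracSmall F p}, qf / 2 ≤ p →
      p ≤ 480 * M ^ 2 * expThreshold F := by
    intro p hp hhalf
    have hp0 : 0 ≤ p := hp.1
    have hd : 3 * Real.log n ≤ n * (p / (480 * M ^ 2)) ^ k := by
      have h1 : qf / (960 * M ^ 2) ≤ p / (480 * M ^ 2) := by
        rw [div_le_div_iff₀ (by linarith) hC0]
        nlinarith
      have h2 : (qf / (960 * M ^ 2)) ^ k ≤ (p / (480 * M ^ 2)) ^ k :=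
        pow_le_pow_left₀ (by positivity) h1 k
      have h3 : (n : ℝ) * (qf / (960 * M ^ 2)) ^ k ≤ n * (p / (480 * M ^ 2)) ^ k :=
        mul_le_mul_of_nonneg_left h2 hnpos.le
      linarith
    have h1 := dense_small hn H F hF k hk1 M hM hk p hp0 hp.2.1 hd hp.2.2
    have hmem : p / (480 * M ^ 2) ∈ {p : ℝ | 0 ≤ p ∧ p ≤ 1 ∧ IsSmall F p} := by
      refine ⟨by positivity, ?_, h1⟩
      exact (div_le_self hp0 hC1).trans hp.2.1
    have h2 : p / (480 * M ^ 2) ≤ expThreshold F := le_csSup hbdd hmem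
    rw [div_le_iff₀ hC0] at h2
    linarith
  -- a fractionally small density above `qf / 2` exists, and the supremum is approached
  have hne : ({p : ℝ | 0 ≤ p ∧ p ≤ 1 ∧ IsFracSmall F p}).Nonempty := by
    by_contra hcon
    rw [Set.not_nonempty_iff_eq_empty] at hcon
    have : qf = 0 := by
      rw [hqf]
      unfold fracExpThreshold
      rw [hcon, Real.sSup_empty]
    linarith
  by_contra hcontra
  rw [not_le] at hcontra
  -- pick `p` in the set with `p > max (qf / 2) (480 M^2 q)`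
  have hlt : max (qf / 2) (480 * M ^ 2 * expThreshold F) < qf := max_lt (by linarith) hcontra
  obtain ⟨p, hpmem, hplt⟩ := exists_lt_of_lt_csSup hne hlt
  have h1 := key p hpmem (le_of_lt (lt_of_le_of_lt (le_max_left _ _) hplt))
  have h2 : 480 * M ^ 2 * expThreshold F < p := lt_of_le_of_lt (le_max_right _ _) hplt
  linarith

end Vale.Agent.Lib.P034.H33D
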